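import Mathlib
import Crest.Prelude.Def_FoulkesHowe

-- ▼ part R187/Basic
section

/-! Row 187 (S0287): basic tools.  Functional trick, permanents, powers of linear forms. -/

set_option autoImplicit false

namespace Crest.Agent.R187

open MvPolynomial Crest.AlgebraR.FoulkesHowe

/-- functional trick, univariate -/
theorem poly_coeff_mem {S : Type*} [CommRing S] [Algebra ℂ S] (V : Submodule ℂ S)
    (p : Polynomial S) (h : ∀ t : ℂ, p.eval (algebraMap ℂ S t) ∈ V) (m : ℕ) :
    p.coeff m ∈ V := by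
  by_contra hm
  obtain ⟨φ, h1, h2⟩ := Submodule.exists_le_ker_of_notMem hm
  apply h1
  let q : Polynomial ℂ := ∑ i ∈ Finset.range (p.natDegree + 1), Polynomial.monomial i (φ (p.coeff i))
  have hq : q = 0 := by
    apply Polynomial.funext
    intro t
    have h3 := h2 (h t)
    rw [LinearMap.mem_ker, Polynomial.eval_eq_sum_range, map_sum] at h3
    rw [Polynomial.eval_zero, Polynomial.eval_finset_sum, ← h3]
    apply Finset.sum_congr rfl
    intro i _
    rw [Polynomial.eval_monomial, ← map_pow, ← Algebra.commutes, ← Algebra.smul_def, map_smul,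
      smul_eq_mul, mul_comm]
  have h4 : q.coeff m = φ (p.coeff m) := by
    simp only [q, Polynomial.finset_sum_coeff, Polynomial.coeff_monomial]
    rw [Finset.sum_ite_eq' (Finset.range (p.natDegree + 1)) m]
    split_ifs with h5
    · rfl
    · rw [Polynomial.coeff_eq_zero_of_natDegree_lt, map_zero]
      simpa using h5
  rw [← h4, hq, Polynomial.coeff_zero]

/-- functional trick, multivariate -/
theorem mv_coeff_mem {σ S : Type*} [CommRing S] [Algebra ℂ S] (V : Submodule ℂ S)
    (p : MvPolynomial σ S) (h : ∀ t : σ → ℂ, eval (fun i => algebraMap ℂ S (t i)) p ∈ V)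
    (m : σ →₀ ℕ) : coeff m p ∈ V := by
  classical
  by_contra hm
  obtain ⟨φ, h1, h2⟩ := Submodule.exists_le_ker_of_notMem hm
  apply h1
  let q : MvPolynomial σ ℂ := ∑ i ∈ p.support, monomial i (φ (coeff i p))
  have hq : q = 0 := by
    apply MvPolynomial.funext
    intro t
    have h3 := h2 (h t)
    rw [LinearMap.mem_ker, MvPolynomial.eval_eq, map_sum] at h3
    rw [map_zero, map_sum, ← h3]
    apply Finset.sum_congr rfl
    intro i _
    rw [eval_monomial, Finsupp.prod]
    have : ∏ j ∈ i.support, (algebraMap ℂ S (t j)) ^ i j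
        = algebraMap ℂ S (∏ j ∈ i.support, t j ^ i j) := by
      rw [map_prod]; simp only [map_pow]
    rw [this, ← Algebra.commutes, ← Algebra.smul_def, map_smul, smul_eq_mul, mul_comm]
  have h4 : coeff m q = φ (coeff m p) := by
    simp only [q, coeff_sum, coeff_monomial]
    rw [Finset.sum_ite_eq' p.support m]
    split_ifs with h5
    · rfl
    · rw [notMem_support_iff.mp h5, map_zero]
  rw [← h4, hq, coeff_zero]

/-- the permanent lemma -/
theorem perm_mem {S : Type*} [CommRing S] [Algebra ℂ S] (V : Submodule ℂ S) {a : ℕ}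
    (M : Fin a → Fin a → S) (h : ∀ t : Fin a → ℂ, ∏ i, ∑ j, t j • M i j ∈ V) :
    ∑ σ : Equiv.Perm (Fin a), ∏ i, M i (σ i) ∈ V := by
  classical
  let p : MvPolynomial (Fin a) S := ∏ i, ∑ j, X j * C (M i j)
  have hp : ∀ t : Fin a → ℂ, eval (fun i => algebraMap ℂ S (t i)) p ∈ V := by
    intro t
    have : eval (fun i => algebraMap ℂ S (t i)) p = ∏ i, ∑ j, t j • M i j := by
      simp only [p, map_prod, map_sum, map_mul, eval_X, eval_C, Algebra.smul_def]
    rw [this]; exact h t
  have key := mv_coeff_mem V p hp (∑ j, Finsupp.single j 1)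
  convert key using 1
  have hexp : p = ∑ φ : Fin a → Fin a, monomial (∑ i, Finsupp.single (φ i) 1)
      (∏ i, M i (φ i)) := by
    simp only [p]
    rw [Finset.prod_univ_sum, Fintype.piFinset_univ]
    apply Finset.sum_congr rfl
    intro φ _
    rw [Finset.prod_mul_distrib]
    rw [← map_prod]
    have : ∏ i : Fin a, (X (φ i) : MvPolynomial (Fin a) S)
        = monomial (∑ i, Finsupp.single (φ i) 1) 1 := by
      rw [monomial_sum_one]
      rfl
    rw [this, mul_comm, C_mul_monomial, mul_one]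
  rw [hexp, coeff_sum]
  simp only [coeff_monomial]
  rw [← Finset.sum_filter]
  symm
  have hbij : ∀ φ : Fin a → Fin a, (∑ i, Finsupp.single (φ i) 1 : Fin a →₀ ℕ)
      = ∑ j, Finsupp.single j 1 ↔ Function.Bijective φ := by
    intro φ
    constructor
    · intro hφ
      rw [← Finite.surjective_iff_bijective]
      intro j
      have h1 := DFunLike.congr_fun hφ j
      simp only [Finsupp.finset_sum_apply, Finsupp.single_apply] at h1
      by_contra hj
      push Not at hj
      rw [Finset.sum_eq_zero (fun i _ => if_neg (hj i))] at h1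
      simp at h1
    · intro hφ
      exact (Equiv.ofBijective φ hφ).sum_comp (fun j => (Finsupp.single j 1 : Fin a →₀ ℕ))
  refine Finset.sum_bij' (fun φ hφ => Equiv.ofBijective φ ((hbij φ).mp (Finset.mem_filter.mp hφ).2))
    (fun σ _ => σ) ?_ ?_ ?_ ?_ ?_
  · intro φ hφ; exact Finset.mem_univ _
  · intro σ _
    rw [Finset.mem_filter]
    exact ⟨Finset.mem_univ _, (hbij σ).mpr σ.bijective⟩
  · intro φ hφ; rfl
  · intro σ _; ext; rfl
  · intro φ hφ; rfl

end Crest.Agent.R187
end

-- ▼ part R187/Defs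
section

/-! Row 187 (S0287): block norms, invariants, symmetrization. -/

set_option autoImplicit false

namespace Crest.Agent.R187

open MvPolynomial Crest.AlgebraR.FoulkesHowe

/-- one-block ring -/
abbrev P (n : ℕ) : Type := MvPolynomial (Fin n) ℂ
/-- `a`-block ring -/
abbrev SA (a n : ℕ) : Type := MvPolynomial (Var a n) ℂ

/-- forms of degree d -/
noncomputable abbrev H (n d : ℕ) : Submodule ℂ (P n) := homogeneousSubmodule (Fin n) ℂ d

/-- insertion into block i -/
noncomputable def blk {a n : ℕ} (i : Fin a) : P n →ₐ[ℂ] SA a n := rename (fun k => (i, k))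

/-- the block norm -/
noncomputable def Nm (a : ℕ) {n : ℕ} (F : P n) : SA a n := ∏ i, blk i F



theorem Nm_pow {a n : ℕ} (F : P n) (k : ℕ) : Nm a (F ^ k) = Nm a F ^ k := by
  simp only [Nm, map_pow, Finset.prod_pow]

theorem Nm_prod {a n : ℕ} {ι : Type*} (s : Finset ι) (F : ι → P n) :
    Nm a (∏ i ∈ s, F i) = ∏ i ∈ s, Nm a (F i) := by
  simp only [Nm, map_prod]
  rw [Finset.prod_comm]

/-- shift embedding of a blocks in a+1 blocks (as blocks 1..a) -/
noncomputable def shift (a n : ℕ) : SA a n →ₐ[ℂ] SA (a + 1) n :=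
  rename (fun v => (Fin.succ v.1, v.2))

theorem shift_blk {a n : ℕ} (i : Fin a) (F : P n) :
    shift a n (blk i F) = blk (Fin.succ i) F := by
  simp only [shift, blk, rename_rename]; rfl

theorem shift_Nm {a n : ℕ} (F : P n) : shift a n (Nm a F) = ∏ i : Fin a, blk (Fin.succ i) F := by
  simp only [Nm, map_prod, shift_blk]

theorem Nm_succ {a n : ℕ} (F : P n) :
    Nm (a + 1) F = shift a n (Nm a F) * blk 0 F := by
  rw [shift_Nm, Nm, Fin.prod_univ_succ, mul_comm]

/-- action of a permutation -/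
noncomputable def act {a n : ℕ} (σ : Equiv.Perm (Fin a)) : SA a n →ₐ[ℂ] SA a n :=
  rename (blockPerm σ)

theorem act_blk {a n : ℕ} (σ : Equiv.Perm (Fin a)) (i : Fin a) (F : P n) :
    act σ (blk i F) = blk (σ i) F := by
  simp only [act, blk, rename_rename]; rfl

theorem act_Nm {a n : ℕ} (σ : Equiv.Perm (Fin a)) (F : P n) : act σ (Nm a F) = Nm a F := by
  simp only [Nm, map_prod, act_blk]
  exact Equiv.prod_comp σ (fun i => blk i F)

/-- the symmetric subalgebra -/
noncomputable def Inv (a n : ℕ) : Subalgebra ℂ (SA a n) :=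
  ⨅ σ : Equiv.Perm (Fin a), AlgHom.equalizer (act σ) (AlgHom.id ℂ _)

theorem mem_Inv {a n : ℕ} (x : SA a n) : x ∈ Inv a n ↔ ∀ σ, act σ x = x := by
  simp only [Inv, Algebra.mem_iInf, AlgHom.mem_equalizer, AlgHom.id_apply]

theorem Nm_mem_Inv {a n : ℕ} (F : P n) : Nm a F ∈ Inv a n := by
  rw [mem_Inv]; exact fun σ => act_Nm σ F

/-- symmetrization -/
noncomputable def Sy (a n : ℕ) : SA a n →ₗ[ℂ] SA a n :=
  ∑ σ : Equiv.Perm (Fin a), (act σ).toLinearMap

theorem Sy_apply {a n : ℕ} (x : SA a n) : Sy a n x = ∑ σ : Equiv.Perm (Fin a), act σ x := by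
  simp only [Sy, LinearMap.sum_apply, AlgHom.toLinearMap_apply]

theorem Sy_of_Inv {a n : ℕ} {x : SA a n} (hx : x ∈ Inv a n) :
    Sy a n x = (Nat.factorial a : ℂ) • x := by
  rw [mem_Inv] at hx
  rw [Sy_apply]
  simp only [hx, Finset.sum_const, Finset.card_univ, Fintype.card_perm, Fintype.card_fin]
  rw [Nat.cast_smul_eq_nsmul]

theorem Sy_mul {a n : ℕ} {u : SA a n} (hu : u ∈ Inv a n) (x : SA a n) :
    Sy a n (u * x) = u * Sy a n x := by
  rw [mem_Inv] at hu
  simp only [Sy_apply, map_mul, hu, Finset.mul_sum]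

/-- Symmetrization trick. -/
theorem sy_trick {a n : ℕ} {U K W : Submodule ℂ (SA a n)}
    (hU : U ≤ Subalgebra.toSubmodule (Inv a n)) (hK : ∀ x ∈ K, Sy a n x ∈ W)
    {z : SA a n} (hz : z ∈ U * K) (hzI : z ∈ Inv a n) : z ∈ U * W := by
  have h1 : Sy a n z ∈ U * W := by
    clear hzI
    induction hz using Submodule.mul_induction_on' with
    | mem_mul_mem u hu x hx =>
      rw [Sy_mul (hU hu)]
      exact Submodule.mul_mem_mul hu (hK x hx)
    | add x _ y _ hx hy => rw [map_add]; exact Submodule.add_mem _ hx hy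
  rw [Sy_of_Inv hzI] at h1
  have h2 : (Nat.factorial a : ℂ) ≠ 0 := by exact_mod_cast Nat.factorial_ne_zero a
  have h3 := Submodule.smul_mem (U * W) ((Nat.factorial a : ℂ)⁻¹) h1
  rwa [smul_smul, inv_mul_cancel₀ h2, one_smul] at h3

/-- span of the norms of forms of degree b -/
noncomputable def R (a n b : ℕ) : Submodule ℂ (SA a n) :=
  Submodule.span ℂ ((fun F => Nm a F) '' (H n b : Set (P n)))

/-- span of the k-th powers of norms of linear forms -/
noncomputable def D (a n k : ℕ) : Submodule ℂ (SA a n) :=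
  Submodule.span ℂ ((fun F => Nm a F ^ k) '' (H n 1 : Set (P n)))

/-- block zero forms -/
noncomputable def Q (a n d : ℕ) : Submodule ℂ (SA (a + 1) n) :=
  (H n d).map (blk (0 : Fin (a + 1))).toLinearMap

theorem Nm_mem_R {a n b : ℕ} {F : P n} (hF : F ∈ H n b) : Nm a F ∈ R a n b :=
  Submodule.subset_span ⟨F, hF, rfl⟩

theorem Nm_pow_mem_D {a n k : ℕ} {F : P n} (hF : F ∈ H n 1) : Nm a F ^ k ∈ D a n k :=
  Submodule.subset_span ⟨F, hF, rfl⟩

theorem Nm_mem_D {a n : ℕ} {F : P n} (hF : F ∈ H n 1) : Nm a F ∈ D a n 1 := by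
  have := Nm_pow_mem_D (a := a) (k := 1) hF
  rwa [pow_one] at this

theorem blk_mem_Q {a n d : ℕ} {F : P n} (hF : F ∈ H n d) :
    blk (0 : Fin (a + 1)) F ∈ Q a n d := ⟨F, hF, rfl⟩

theorem D_le_Inv {a n k : ℕ} : D a n k ≤ Subalgebra.toSubmodule (Inv a n) := by
  rw [D, Submodule.span_le]
  rintro _ ⟨F, hF, rfl⟩
  exact Subalgebra.pow_mem _ (Nm_mem_Inv F) k

theorem pow_le_Inv {a n : ℕ} {U : Submodule ℂ (SA a n)}
    (hU : U ≤ Subalgebra.toSubmodule (Inv a n)) (m : ℕ) :
    U ^ m ≤ Subalgebra.toSubmodule (Inv a n) := by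
  induction m with
  | zero =>
    rw [pow_zero, Submodule.one_le]
    exact Subalgebra.one_mem _
  | succ m ih =>
    rw [pow_succ, Submodule.mul_le]
    intro x hx y hy
    exact Subalgebra.mul_mem _ (ih hx) (hU hy)

/-- forms of degree d are spanned by powers of linear forms -/
theorem H_le_span_pow (n d : ℕ) :
    H n d ≤ Submodule.span ℂ ((fun w => w ^ d) '' (H n 1 : Set (P n))) := by
  rw [H, ← homogeneousSubmodule_one_pow, Submodule.pow_eq_span_pow_set, Submodule.span_le]
  intro x hx
  rw [Set.mem_pow] at hx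
  obtain ⟨f, rfl⟩ := hx
  rw [List.prod_ofFn]
  have key := perm_mem (Submodule.span ℂ ((fun w : P n => w ^ d) '' (H n 1 : Set (P n))))
    (fun (_ j : Fin d) => (f j : P n)) (by
      intro t
      rw [Finset.prod_const, Finset.card_univ, Fintype.card_fin]
      apply Submodule.subset_span
      refine ⟨∑ j, t j • (f j : P n), ?_, rfl⟩
      exact Submodule.sum_mem _ (fun j _ => Submodule.smul_mem _ _ (f j).2))
  have h1 : ∑ σ : Equiv.Perm (Fin d), ∏ i, (f (σ i) : P n)
      = (Nat.factorial d : ℂ) • ∏ i, (f i : P n) := by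
    rw [Finset.sum_congr rfl (fun σ _ => Equiv.prod_comp σ (fun i => (f i : P n)))]
    simp only [Finset.sum_const, Finset.card_univ, Fintype.card_perm, Fintype.card_fin]
    rw [Nat.cast_smul_eq_nsmul]
  rw [h1] at key
  have h2 : (Nat.factorial d : ℂ) ≠ 0 := by exact_mod_cast Nat.factorial_ne_zero d
  have h3 := Submodule.smul_mem _ ((Nat.factorial d : ℂ)⁻¹) key
  rwa [smul_smul, inv_mul_cancel₀ h2, one_smul] at h3

/-- Symmetrization of `G` in blocks 1..a and `F` in block 0. -/
theorem Sy_blk_mem {a n : ℕ} (W : Submodule ℂ (SA (a + 1) n)) (F G : P n)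
    (h : ∀ s t : ℂ, Nm (a + 1) (s • G + t • F) ∈ W) :
    Sy (a + 1) n (shift a n (Nm a G) * blk 0 F) ∈ W := by
  let Fs : Fin (a + 1) → P n := Fin.cons F (fun _ => G)
  have h1 : shift a n (Nm a G) * blk 0 F = ∏ i, blk i (Fs i) := by
    rw [shift_Nm, Fin.prod_univ_succ, mul_comm]; rfl
  have key := perm_mem W (fun i j => blk i (Fs j)) (by
    intro t
    have h2 : ∏ i, ∑ j, t j • blk i (Fs j)
        = Nm (a + 1) ((∑ j : Fin a, t (Fin.succ j)) • G + t 0 • F) := by
      rw [Nm]
      apply Finset.prod_congr rfl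
      intro i _
      rw [Fin.sum_univ_succ, map_add, map_smul, map_smul, Finset.sum_smul]
      exact add_comm _ _
    rw [h2]; exact h _ _)
  rw [h1, Sy_apply]
  simp only [map_prod, act_blk]
  convert key using 1
  rw [← Equiv.sum_comp (Equiv.inv (Equiv.Perm (Fin (a + 1))))]
  apply Finset.sum_congr rfl
  intro σ _
  rw [← Equiv.prod_comp σ]
  apply Finset.prod_congr rfl
  intro i _
  simp

end Crest.Agent.R187
end

-- ▼ part R187/Key
section

/-! Row 187 (S0287): the key elimination lemma. -/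

set_option autoImplicit false

namespace Crest.Agent.R187

open MvPolynomial Crest.AlgebraR.FoulkesHowe

theorem Q_mul {a n d e : ℕ} {x y : SA (a + 1) n} (hx : x ∈ Q a n d) (hy : y ∈ Q a n e) :
    x * y ∈ Q a n (d + e) := by
  obtain ⟨F, hF, rfl⟩ := hx
  obtain ⟨G, hG, rfl⟩ := hy
  refine ⟨F * G, ?_, by simp⟩
  exact IsHomogeneous.mul hF hG

theorem VQ_mul {a n d e : ℕ} {V : Submodule ℂ (SA (a + 1) n)} {x y : SA (a + 1) n}
    (hx : x ∈ V * Q a n d) (hy : y ∈ Q a n e) :
    x * y ∈ V * Q a n (d + e) := by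
  have h1 : x * y ∈ V * Q a n d * Q a n e := Submodule.mul_mem_mul hx hy
  rw [mul_assoc] at h1
  have h2 : Q a n d * Q a n e ≤ Q a n (d + e) := by
    rw [Submodule.mul_le]
    intro u hu v hv
    exact Q_mul hu hv
  exact (mul_le_mul' le_rfl h2) h1

/-- one step of elimination -/
theorem elim_step {a n N : ℕ} (V : Submodule ℂ (SA (a + 1) n)) (x y : SA (a + 1) n)
    (hx : x ∈ Q a n 1) (hy : y ∈ Q a n 1) (k : ℕ) (q : Polynomial (SA (a + 1) n))
    (hdeg : ∀ i, N < i + (k + 1) → q.coeff i = 0)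
    (hp : ∀ i r, i + k + r = N →
      ((Polynomial.C x + Polynomial.X * Polynomial.C y) * q).coeff i * y ^ (k + r) ∈ V * Q a n r)
    (r : ℕ) : ∀ i, i + (k + 1) + r = N → q.coeff i * y ^ (k + 1 + r) ∈ V * Q a n r := by
  have hc : ∀ i, ((Polynomial.C x + Polynomial.X * Polynomial.C y) * q).coeff (i + 1)
      = x * q.coeff (i + 1) + y * q.coeff i := by
    intro i
    rw [add_mul, Polynomial.coeff_add, Polynomial.coeff_C_mul, mul_assoc, Polynomial.coeff_X_mul,
      Polynomial.coeff_C_mul]
  induction r with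
  | zero =>
    intro i hi
    have h1 := hp (i + 1) 0 (by omega)
    rw [hc, hdeg (i + 1) (by omega), mul_zero, zero_add] at h1
    have : q.coeff i * y ^ (k + 1 + 0) = y * q.coeff i * y ^ (k + 0) := by ring
    rw [this]; exact h1
  | succ r ih =>
    intro i hi
    have h1 := hp (i + 1) (r + 1) (by omega)
    rw [hc] at h1
    have h2 := ih (i + 1) (by omega)
    have h3 := VQ_mul h2 hx
    have h4 : q.coeff i * y ^ (k + 1 + (r + 1))
        = (x * q.coeff (i + 1) + y * q.coeff i) * y ^ (k + (r + 1))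
          - q.coeff (i + 1) * y ^ (k + 1 + r) * x := by ring
    rw [h4]
    exact Submodule.sub_mem _ h1 h3

theorem elim {a n N : ℕ} (V : Submodule ℂ (SA (a + 1) n)) (x y : SA (a + 1) n)
    (hx : x ∈ Q a n 1) (hy : y ∈ Q a n 1) (k : ℕ) : ∀ (q : Polynomial (SA (a + 1) n)),
    (∀ i, N < i + k → q.coeff i = 0) →
    (∀ i, ((Polynomial.C x + Polynomial.X * Polynomial.C y) ^ k * q).coeff i ∈ V) →
    ∀ i r, i + k + r = N → q.coeff i * y ^ (k + r) ∈ V * Q a n r := by
  induction k with
  | zero =>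
    intro q hdeg hp i r hi
    have h1 := hp i
    rw [pow_zero, one_mul] at h1
    refine Submodule.mul_mem_mul h1 ?_
    obtain ⟨w, hw, rfl⟩ := hy
    refine ⟨w ^ (0 + r), ?_, by simp⟩
    have := IsHomogeneous.pow hw (0 + r)
    simpa using this
  | succ k ih =>
    intro q hdeg hp i r hi
    refine elim_step V x y hx hy k q hdeg ?_ r i hi
    apply ih
    · intro i hi
      rcases i with _ | i
      · rw [add_mul, Polynomial.coeff_add, Polynomial.coeff_C_mul, mul_assoc, Polynomial.coeff_X_mul_zero,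
          hdeg 0 (by omega)]
        simp
      · rw [add_mul, Polynomial.coeff_add, Polynomial.coeff_C_mul, mul_assoc, Polynomial.coeff_X_mul,
          Polynomial.coeff_C_mul, hdeg i (by omega), hdeg (i + 1) (by omega)]
        simp
    · intro i
      have := hp i
      rw [pow_succ, mul_assoc] at this
      exact this

/-- KEY lemma -/
theorem key {a n k b : ℕ} (hb : (a + 1) * k ≤ b) {v w : P n} (hv : v ∈ H n 1) (hw : w ∈ H n 1) :
    shift a n (Nm a v) ^ k * blk 0 w ^ b ∈ D (a + 1) n k * Q a n (b - k) := by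
  let E : Polynomial (SA (a + 1) n) :=
    ∏ i : Fin a, (Polynomial.C (blk i.succ v) + Polynomial.X * Polynomial.C (blk i.succ w))
  have hEdeg : E.natDegree ≤ a := by
    refine (Polynomial.natDegree_prod_le _ _).trans ?_
    refine (Finset.sum_le_card_nsmul _ _ 1 ?_).trans ?_
    · intro i _
      compute_degree
    · simp
  have hEk : (E ^ k).natDegree ≤ a * k := by
    refine Polynomial.natDegree_pow_le.trans ?_
    rw [mul_comm]; exact Nat.mul_le_mul_right k hEdeg
  have hkb : k ≤ b := le_trans (Nat.le_mul_of_pos_left k (Nat.succ_pos a)) hb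
  have h := elim (N := b) (D (a + 1) n k) (blk 0 v) (blk 0 w) (blk_mem_Q hv) (blk_mem_Q hw) k (E ^ k)
    (by
      intro i hi
      apply Polynomial.coeff_eq_zero_of_natDegree_lt
      have : a * k + k ≤ b := by rw [← Nat.succ_mul]; exact hb
      omega)
    (by
      intro i
      apply poly_coeff_mem
      intro t
      have h1 : ((Polynomial.C (blk 0 v) + Polynomial.X * Polynomial.C (blk 0 w)) ^ k
          * E ^ k).eval (algebraMap ℂ (SA (a + 1) n) t) = Nm (a + 1) (v + t • w) ^ k := by
        rw [Polynomial.eval_mul, Polynomial.eval_pow, Polynomial.eval_pow, ← mul_pow]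
        congr 1
        have h0 : ∀ i : Fin (a + 1), blk i (v + t • w)
            = blk i v + algebraMap ℂ (SA (a + 1) n) t * blk i w := by
          intro i
          rw [map_add, map_smul, Algebra.smul_def]
        rw [Nm, Fin.prod_univ_succ]
        simp only [E, Polynomial.eval_prod, Polynomial.eval_add, Polynomial.eval_mul,
          Polynomial.eval_C, Polynomial.eval_X, h0]
      rw [h1]
      exact Nm_pow_mem_D (Submodule.add_mem _ hv (Submodule.smul_mem _ _ hw)))
    0 (b - k) (by omega)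
  have h2 : (E ^ k).coeff 0 = shift a n (Nm a v) ^ k := by
    rw [Polynomial.coeff_zero_eq_eval_zero, Polynomial.eval_pow, shift_Nm]
    simp only [E, Polynomial.eval_prod, Polynomial.eval_add, Polynomial.eval_mul,
          Polynomial.eval_C, Polynomial.eval_X, zero_mul, add_zero]
  rw [h2] at h
  have h3 : k + (b - k) = b := by omega
  rw [h3] at h
  exact h

/-- KEY lemma, submodule form -/
theorem key_sub {a n k b : ℕ} (hb : (a + 1) * k ≤ b) :
    (D a n k).map (shift a n).toLinearMap * Q a n b ≤ D (a + 1) n k * Q a n (b - k) := by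
  rw [D, Submodule.map_span, Q]
  have h1 : (H n b).map (blk (0 : Fin (a + 1))).toLinearMap
      ≤ (Submodule.span ℂ ((fun w => w ^ b) '' (H n 1 : Set (P n)))).map
        (blk (0 : Fin (a + 1))).toLinearMap := Submodule.map_mono (H_le_span_pow n b)
  refine (mul_le_mul' le_rfl h1).trans ?_
  rw [Submodule.map_span, Submodule.span_mul_span, Submodule.span_le]
  rintro _ ⟨_, ⟨_, ⟨v, hv, rfl⟩, rfl⟩, _, ⟨_, ⟨w, hw, rfl⟩, rfl⟩, rfl⟩
  have := key hb hv hw
  simpa using this

/-- (A') -/
theorem aprime {a n k : ℕ} (hk : a ≤ k) (m : ℕ) :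
    ((D a n 1) ^ m).map (shift a n).toLinearMap * Q a n (m + k)
      ≤ (D (a + 1) n 1) ^ m * Q a n k := by
  induction m with
  | zero =>
    rw [pow_zero, pow_zero, Submodule.map_one, one_mul, one_mul, zero_add]
  | succ m ih =>
    rw [pow_succ, Submodule.map_mul, mul_assoc]
    have h1 := key_sub (a := a) (n := n) (k := 1) (b := m + 1 + k) (by omega)
    have h2 : m + 1 + k - 1 = m + k := by omega
    rw [h2] at h1
    refine (mul_le_mul' le_rfl h1).trans ?_
    rw [mul_left_comm, pow_succ', mul_assoc]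
    exact mul_le_mul' le_rfl ih

/-- symmetrization of shift(R) * Q lies in R -/
theorem sy_RQ {a n b : ℕ} (x : SA (a + 1) n)
    (hx : x ∈ (R a n b).map (shift a n).toLinearMap * Q a n b) : Sy (a + 1) n x ∈ R (a + 1) n b := by
  induction hx using Submodule.mul_induction_on' with
  | mem_mul_mem u hu y hy =>
    obtain ⟨F, hF, rfl⟩ := hy
    obtain ⟨z, hz, rfl⟩ := hu
    rw [R] at hz
    induction hz using Submodule.span_induction with
    | mem z hz =>
      obtain ⟨G, hG, rfl⟩ := hz
      apply Sy_blk_mem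
      intro s t
      exact Nm_mem_R (Submodule.add_mem _ (Submodule.smul_mem _ _ hG) (Submodule.smul_mem _ _ hF))
    | zero => simp
    | add x y _ _ hx hy =>
      rw [map_add, add_mul, map_add]; exact Submodule.add_mem _ hx hy
    | smul c x _ hx =>
      rw [map_smul, smul_mul_assoc, map_smul]; exact Submodule.smul_mem _ _ hx
  | add x _ y _ hx hy => rw [map_add]; exact Submodule.add_mem _ hx hy


/-- (B) -/
theorem stepB (n k : ℕ) : ∀ (a b : ℕ), a * k ≤ b → R a n b ≤ D a n k * R a n (b - k) := by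
  intro a
  induction a with
  | zero =>
    intro b _
    rw [R, Submodule.span_le]
    rintro _ ⟨F, hF, rfl⟩
    have h1 : Nm 0 F = Nm 0 (0 : P n) ^ k * Nm 0 (0 : P n) := by simp [Nm]
    show Nm 0 F ∈ _
    rw [h1]
    exact Submodule.mul_mem_mul (Nm_pow_mem_D (Submodule.zero_mem _)) (Nm_mem_R (Submodule.zero_mem _))
  | succ a ih =>
    intro b hb
    rw [R, Submodule.span_le]
    rintro _ ⟨F, hF, rfl⟩
    have hak : a * k ≤ b := le_trans (Nat.mul_le_mul_right k (Nat.le_succ a)) hb
    have h1 : Nm a F ∈ D a n k * R a n (b - k) := ih b hak (Nm_mem_R hF)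
    have h2 : Nm (a + 1) F ∈ (D a n k * R a n (b - k)).map (shift a n).toLinearMap * Q a n b := by
      rw [Nm_succ]
      exact Submodule.mul_mem_mul ⟨_, h1, rfl⟩ (blk_mem_Q hF)
    rw [Submodule.map_mul, mul_right_comm] at h2
    have h3 : Nm (a + 1) F ∈ D (a + 1) n k *
        ((R a n (b - k)).map (shift a n).toLinearMap * Q a n (b - k)) := by
      rw [mul_comm ((R a n (b - k)).map (shift a n).toLinearMap), ← mul_assoc]
      exact (mul_le_mul' (key_sub hb) le_rfl) h2
    exact sy_trick D_le_Inv (fun x hx => sy_RQ x hx) h3 (Nm_mem_Inv F)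

end Crest.Agent.R187
end

-- ▼ part R187/Main
section

/-! Row 187 (S0287): root-of-unity step and the main induction. -/

set_option autoImplicit false

namespace Crest.Agent.R187

open MvPolynomial Crest.AlgebraR.FoulkesHowe

theorem prod_mem_pow {S ι : Type*} [CommRing S] [Algebra ℂ S] (V : Submodule ℂ S)
    (s : Finset ι) (f : ι → S) (hf : ∀ i ∈ s, f i ∈ V) : ∏ i ∈ s, f i ∈ V ^ s.card := by
  classical
  induction s using Finset.induction_on with
  | empty => simp [Submodule.one_le.mp le_rfl]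
  | insert i s hi ih =>
    rw [Finset.prod_insert hi, Finset.card_insert_of_notMem hi, pow_succ']
    exact Submodule.mul_mem_mul (hf i (Finset.mem_insert_self i s))
      (ih (fun j hj => hf j (Finset.mem_insert_of_mem hj)))

/-- norms of binomials -/
theorem Nm_binom {a n k : ℕ} (hk : 0 < k) {v w : P n} (hv : v ∈ H n 1) (hw : w ∈ H n 1) :
    Nm a (v ^ k - w ^ k) ∈ D a n 1 ^ k := by
  have hζ := Complex.isPrimitiveRoot_exp k hk.ne'
  have h1 : v ^ k - w ^ k = ∏ ζ ∈ Polynomial.nthRootsFinset k (1 : ℂ), (v - ζ • w) := by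
    apply MvPolynomial.funext
    intro x
    rw [map_sub, map_pow, map_pow, map_prod]
    rw [IsPrimitiveRoot.pow_sub_pow_eq_prod_sub_mul _ _ hk hζ]
    apply Finset.prod_congr rfl
    intro ζ _
    rw [map_sub, smul_eval]
  have h2 : (Polynomial.nthRootsFinset k (1 : ℂ)).card = k := hζ.card_nthRootsFinset
  rw [h1, Nm_prod]
  have h3 := prod_mem_pow (D a n 1) (Polynomial.nthRootsFinset k (1 : ℂ))
    (fun ζ => Nm a (v - ζ • w)) (fun ζ _ => Nm_mem_D (Submodule.sub_mem _ hv (Submodule.smul_mem _ _ hw)))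
  rwa [h2] at h3

/-- norms of general binomials -/
theorem Nm_binom' {a n k : ℕ} {v w : P n} (hv : v ∈ H n 1) (hw : w ∈ H n 1) (s t : ℂ) :
    Nm a (s • v ^ k + t • w ^ k) ∈ D a n 1 ^ k := by
  rcases Nat.eq_zero_or_pos k with rfl | hk
  · have h1 : s • v ^ 0 + t • w ^ 0 = algebraMap ℂ (P n) (s + t) := by
      rw [pow_zero, pow_zero, ← add_smul, Algebra.algebraMap_eq_smul_one]
    rw [h1, pow_zero, Nm]
    simp only [AlgHom.commutes]
    rw [Finset.prod_const, ← map_pow]
    exact Submodule.algebraMap_mem _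
  · obtain ⟨s', hs'⟩ := IsAlgClosed.exists_pow_nat_eq s hk
    obtain ⟨t', ht'⟩ := IsAlgClosed.exists_pow_nat_eq (-t) hk
    have h1 : s • v ^ k + t • w ^ k = (s' • v) ^ k - (t' • w) ^ k := by
      rw [smul_pow, smul_pow, hs', ht', neg_smul, sub_neg_eq_add]
    rw [h1]
    exact Nm_binom hk (Submodule.smul_mem _ _ hv) (Submodule.smul_mem _ _ hw)

/-- (C) -/
theorem sy_DQ {a n k : ℕ} (x : SA (a + 1) n)
    (hx : x ∈ (D a n k).map (shift a n).toLinearMap * Q a n k) :
    Sy (a + 1) n x ∈ D (a + 1) n 1 ^ k := by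
  have hle : (D a n k).map (shift a n).toLinearMap * Q a n k ≤
      (D (a + 1) n 1 ^ k).comap (Sy (a + 1) n) := by
    rw [D, Submodule.map_span, Q]
    have h1 : (H n k).map (blk (0 : Fin (a + 1))).toLinearMap
        ≤ (Submodule.span ℂ ((fun w => w ^ k) '' (H n 1 : Set (P n)))).map
          (blk (0 : Fin (a + 1))).toLinearMap := Submodule.map_mono (H_le_span_pow n k)
    refine (mul_le_mul' le_rfl h1).trans ?_
    rw [Submodule.map_span, Submodule.span_mul_span, Submodule.span_le]
    rintro _ ⟨_, ⟨_, ⟨v, hv, rfl⟩, rfl⟩, _, ⟨_, ⟨w, hw, rfl⟩, rfl⟩, rfl⟩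
    have h2 := Sy_blk_mem (a := a) (D (a + 1) n 1 ^ k) (w ^ k) (v ^ k)
      (fun s t => Nm_binom' hv hw s t)
    rw [Nm_pow] at h2
    exact h2
  exact hle hx

/-- the main theorem on spans of norms -/
theorem main_span (n : ℕ) : ∀ (a b : ℕ), (a - 1) ^ 2 ≤ b → R a n b ≤ D a n 1 ^ b := by
  intro a
  induction a with
  | zero =>
    intro b _
    rw [R, Submodule.span_le]
    rintro _ ⟨F, hF, rfl⟩
    have h1 : Nm 0 F = ∏ i ∈ Finset.range b, Nm 0 (0 : P n) := by simp [Nm]
    show Nm 0 F ∈ _
    rw [h1]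
    have h2 := prod_mem_pow (D 0 n 1) (Finset.range b) (fun _ => Nm 0 (0 : P n))
      (fun _ _ => Nm_mem_D (Submodule.zero_mem _))
    rwa [Finset.card_range] at h2
  | succ a ih =>
    intro b hb
    rw [Nat.add_sub_cancel] at hb
    rw [R, Submodule.span_le]
    rintro _ ⟨F, hF, rfl⟩
    have hab : a * a ≤ b := by rw [← sq]; exact hb
    have hab' : a ≤ b := le_trans (Nat.le_mul_self a) hab
    have h1 : Nm a F ∈ D a n a * R a n (b - a) := stepB n a a b hab (Nm_mem_R hF)
    have h2 : (a - 1) ^ 2 ≤ b - a := by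
      rcases a with _ | a
      · simp
      · apply Nat.le_sub_of_add_le
        rw [Nat.add_sub_cancel]
        nlinarith
    have h3 : Nm a F ∈ D a n a * D a n 1 ^ (b - a) := (mul_le_mul' le_rfl (ih (b - a) h2)) h1
    have h4 : Nm (a + 1) F ∈ (D a n a * D a n 1 ^ (b - a)).map (shift a n).toLinearMap
        * Q a n b := by
      rw [Nm_succ]
      exact Submodule.mul_mem_mul ⟨_, h3, rfl⟩ (blk_mem_Q hF)
    have h5 := aprime (n := n) (le_refl a) (b - a)
    have h6 : b - a + a = b := by omega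
    rw [h6] at h5
    rw [Submodule.map_mul, mul_assoc] at h4
    have h7 : Nm (a + 1) F ∈ D (a + 1) n 1 ^ (b - a) *
        ((D a n a).map (shift a n).toLinearMap * Q a n a) := by
      rw [mul_left_comm]
      exact (mul_le_mul' le_rfl h5) h4
    have h8 := sy_trick (pow_le_Inv D_le_Inv (b - a)) (fun x hx => sy_DQ x hx) h7 (Nm_mem_Inv F)
    rw [← pow_add, h6] at h8
    exact h8

end Crest.Agent.R187
end

-- ▼ part R187/Final

/-! Row 187 (S0287): block-symmetric polynomials are spanned by norms; conclusion. -/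

set_option autoImplicit false

namespace Crest.Agent.R187

open MvPolynomial Crest.AlgebraR.FoulkesHowe

theorem mem_blockSym {a n b : ℕ} (f : MvPolynomial (Var a n) ℂ) :
    f ∈ blockSym a n b ↔ (∀ i : Fin a, IsWeightedHomogeneous (blockWeight (n := n) i) f b) ∧
      ∀ σ : Equiv.Perm (Fin a), act σ f = f := by
  simp only [blockSym, Submodule.mem_inf, Submodule.mem_iInf, mem_weightedHomogeneousSubmodule,
    LinearMap.mem_eqLocus, AlgHom.toLinearMap_apply, LinearMap.id_apply, act]

theorem Sy_prod_blk_mem {a n b : ℕ} (Fs : Fin a → P n) (hF : ∀ i, Fs i ∈ H n b) :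
    Sy a n (∏ i, blk i (Fs i)) ∈ R a n b := by
  have key := perm_mem (R a n b) (fun i j => blk i (Fs j)) (by
    intro t
    have h2 : ∏ i, ∑ j, t j • blk i (Fs j) = Nm a (∑ j, t j • Fs j) := by
      rw [Nm]
      apply Finset.prod_congr rfl
      intro i _
      rw [map_sum]
      simp only [map_smul]
    rw [h2]
    exact Nm_mem_R (Submodule.sum_mem _ (fun j _ => Submodule.smul_mem _ _ (hF j))))
  rw [Sy_apply]
  simp only [map_prod, act_blk]
  convert key using 1
  rw [← Equiv.sum_comp (Equiv.inv (Equiv.Perm (Fin a)))]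
  apply Finset.sum_congr rfl
  intro σ _
  rw [← Equiv.prod_comp σ]
  apply Finset.prod_congr rfl
  intro i _
  simp

/-- part of an exponent in block i -/
noncomputable def part {a n : ℕ} (m : Var a n →₀ ℕ) (i : Fin a) : Fin n →₀ ℕ :=
  Finsupp.equivFunOnFinite.symm (fun k => m (i, k))

theorem part_apply {a n : ℕ} (m : Var a n →₀ ℕ) (i : Fin a) (k : Fin n) :
    part m i k = m (i, k) := rfl

theorem sum_part {a n : ℕ} (m : Var a n →₀ ℕ) :
    ∑ i : Fin a, (part m i).mapDomain (fun k => (i, k)) = m := by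
  ext ⟨j, k⟩
  rw [Finsupp.finset_sum_apply, Finset.sum_eq_single j]
  · exact Finsupp.mapDomain_apply (fun x y h => (Prod.mk.inj h).2) _ _
  · intro i _ hij
    apply Finsupp.mapDomain_notin_range
    rintro ⟨k', hk'⟩
    exact hij (Prod.mk.inj hk').1
  · intro h; exact absurd (Finset.mem_univ _) h

theorem monomial_eq_prod {a n : ℕ} (m : Var a n →₀ ℕ) :
    (monomial m 1 : SA a n) = ∏ i, blk i (monomial (part m i) 1) := by
  conv_lhs => rw [← sum_part m]
  rw [monomial_sum_one]
  apply Finset.prod_congr rfl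
  intro i _
  rw [blk, rename_monomial]

theorem part_hom {a n b : ℕ} (m : Var a n →₀ ℕ) (i : Fin a)
    (h : Finsupp.weight (blockWeight (n := n) i) m = b) :
    (monomial (part m i) 1 : P n) ∈ H n b := by
  rw [H, mem_homogeneousSubmodule]
  apply isHomogeneous_monomial
  rw [Finsupp.weight_apply, Finsupp.sum_fintype _ _ (by simp), Fintype.sum_prod_type] at h
  rw [Finsupp.degree_eq_sum, ← h, Finset.sum_eq_single i]
  · apply Finset.sum_congr rfl
    intro k _
    simp [part_apply, blockWeight]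
  · intro j _ hj
    apply Finset.sum_eq_zero
    intro k _
    simp [blockWeight, hj]
  · intro h; exact absurd (Finset.mem_univ _) h

theorem blockSym_le_R {a n b : ℕ} : blockSym a n b ≤ R a n b := by
  intro f hf
  rw [mem_blockSym] at hf
  obtain ⟨h1, h2⟩ := hf
  have h3 : Sy a n f ∈ R a n b := by
    rw [f.as_sum, map_sum]
    apply Submodule.sum_mem
    intro m hm
    have hm' := mem_support_iff.mp hm
    have h4 : (monomial m (coeff m f) : SA a n) = coeff m f • monomial m 1 := by
      rw [smul_monomial, smul_eq_mul, mul_one]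
    rw [h4, map_smul, monomial_eq_prod]
    apply Submodule.smul_mem
    apply Sy_prod_blk_mem
    intro i
    exact part_hom m i (h1 i hm')
  have h5 : f ∈ Inv a n := (mem_Inv f).mpr h2
  rw [Sy_of_Inv h5] at h3
  have h6 : (Nat.factorial a : ℂ) ≠ 0 := by exact_mod_cast Nat.factorial_ne_zero a
  have h7 := Submodule.smul_mem (R a n b) ((Nat.factorial a : ℂ)⁻¹) h3
  rwa [smul_smul, inv_mul_cancel₀ h6, one_smul] at h7

theorem blk_wh {a n : ℕ} (i j : Fin a) {F : P n} (hF : F ∈ H n 1) :
    IsWeightedHomogeneous (blockWeight (n := n) i) (blk j F) (if j = i then 1 else 0) := by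
  have hle : H n 1 ≤ (weightedHomogeneousSubmodule ℂ (blockWeight (a := a) (n := n) i)
      (if j = i then 1 else 0)).comap (blk j).toLinearMap := by
    rw [H, homogeneousSubmodule_one_eq_span_X, Submodule.span_le]
    rintro _ ⟨k, rfl⟩
    have h0 : blk (a := a) j (X k : P n) = X (j, k) := by rw [blk, rename_X]
    show IsWeightedHomogeneous (blockWeight (n := n) i) (blk j (X k : P n)) (if j = i then 1 else 0)
    rw [h0]
    exact isWeightedHomogeneous_X ℂ (blockWeight (n := n) i) (j, k)
  exact hle hF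

theorem D_le_blockSym {a n : ℕ} : D a n 1 ≤ blockSym a n 1 := by
  rw [D, Submodule.span_le]
  rintro _ ⟨F, hF, rfl⟩
  show Nm a F ^ 1 ∈ blockSym a n 1
  rw [pow_one, mem_blockSym]
  refine ⟨fun i => ?_, fun σ => act_Nm σ F⟩
  have h := IsWeightedHomogeneous.prod (w := blockWeight (n := n) i) Finset.univ
    (fun j : Fin a => blk j F) (fun j => if j = i then 1 else 0) (fun j _ => blk_wh i j hF)
  rw [Finset.sum_ite_eq' Finset.univ i, if_pos (Finset.mem_univ i)] at h
  exact h

theorem blockSym_le_pow {a n b : ℕ} (hb : (a - 1) ^ 2 ≤ b) :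
    blockSym a n b ≤ blockSym a n 1 ^ b :=
  (blockSym_le_R.trans (main_span n a b hb)).trans (pow_le_pow_left' D_le_blockSym b)

theorem pow_le_adjoin {a n b : ℕ} :
    blockSym a n 1 ^ b ≤ Subalgebra.toSubmodule
      (Algebra.adjoin ℂ (blockSym a n 1 : Set (MvPolynomial (Var a n) ℂ))) := by
  induction b with
  | zero => rw [pow_zero, Submodule.one_le]; exact Subalgebra.one_mem _
  | succ b ih =>
    rw [pow_succ, Submodule.mul_le]
    intro x hx y hy
    exact Subalgebra.mul_mem _ (ih hx) (Algebra.subset_adjoin hy)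

end Crest.Agent.R187
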